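import Vale.Agent.P142.Corner.Kernel

/-!
# P142: univalence bounds the atoms
-/

noncomputable section

open Metric MeasureTheory Set Filter Topology

namespace Vale.Agent.P142

variable {f : ℂ → ℂ} {μ π ν π' ν' : Measure ↥(sphere (0 : ℂ) 1)}

/-- The radial distance to the circle of a point seen at scale `s`. -/
theorem one_sub_norm_ge {p : ℂ} (hp : ‖p‖ = 1) {a s : ℝ} (hs0 : 0 ≤ s) (hsa : s ≤ a / 4) {w : ℂ}
    (hw : a ≤ w.re) (hw2 : ‖w‖ ≤ 2) : s * a / 2 ≤ 1 - ‖p * (1 - s * w)‖ := by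
  have hwre : w.re ≤ 2 := (Complex.re_le_norm w).trans hw2
  have hsq : ‖p * (1 - s * w)‖ ^ 2 ≤ (1 - s * a / 2) ^ 2 := by
    rw [norm_mul, hp, one_mul, Complex.sq_norm]
    have : w.re ^ 2 + w.im ^ 2 ≤ 4 := by
      have h2 := pow_le_pow_left₀ (norm_nonneg w) hw2 2
      rw [Complex.sq_norm, Complex.normSq_apply] at h2
      linarith
    simp [Complex.normSq_apply]
    nlinarith [mul_le_mul_of_nonneg_left hw hs0, mul_le_mul_of_nonneg_left this (sq_nonneg s),
      mul_le_mul_of_nonneg_left hsa hs0]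
  have := le_of_pow_le_pow_left₀ two_ne_zero (by nlinarith) hsq
  linarith

theorem blowup [IsFiniteMeasure π] [IsFiniteMeasure ν] (p : ↥(sphere (0 : ℂ) 1)) {ε r : ℝ}
    (hr : r < 1)
    (hdec : ∀ z : ℂ, r < ‖z‖ → ‖z‖ < 1 →
      ‖deriv (deriv f) z / deriv f z - (kern π z - kern ν z)‖ ≤ ε / (1 - ‖z‖))
    {a : ℝ} (ha : 0 < a) {δ : ℝ} (hδ : 0 < δ) :
    ∀ᶠ s : ℝ in 𝓝[>] 0, ∀ w : ℂ, a ≤ w.re → ‖w‖ ≤ 2 →
      s * a / 2 ≤ 1 - ‖(p : ℂ) * (1 - s * w)‖ ∧
      ‖(s : ℂ) * p * (deriv (deriv f) ((p : ℂ) * (1 - s * w)) /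
          deriv f ((p : ℂ) * (1 - s * w))) + ((ν.real {p} - π.real {p} : ℝ) : ℂ) / w‖ ≤
        ε * s / (1 - ‖(p : ℂ) * (1 - s * w)‖) + δ := by
  filter_upwards [kern_blowup (μ := π) p ha (half_pos hδ), kern_blowup (μ := ν) p ha (half_pos hδ),
    nhdsWithin_le_nhds (eventually_lt_nhds (show (0 : ℝ) < a / 4 by positivity)),
    nhdsWithin_le_nhds (eventually_lt_nhds (show (0 : ℝ) < (1 - r) / 2 by linarith)),
    self_mem_nhdsWithin] with s hπ hν hsa hsr hs w hw hw2
  have hs0 : (0 : ℝ) < s := hs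
  have hdist := one_sub_norm_ge (norm_coe_pt p) hs0.le hsa.le hw hw2
  refine ⟨hdist, ?_⟩
  set z := (p : ℂ) * (1 - s * w) with hz
  have hz1 : ‖z‖ < 1 := by nlinarith [mul_pos hs0 ha]
  have hzr : r < ‖z‖ := by
    have h1 := norm_sub_norm_le (1 : ℂ) (s * w)
    rw [norm_one, norm_mul, Complex.norm_real, Real.norm_eq_abs, abs_of_pos hs0] at h1
    rw [hz, norm_mul, norm_coe_pt, one_mul]
    nlinarith [mul_le_mul_of_nonneg_left hw2 hs0.le]
  rw [show (s : ℂ) * p * (deriv (deriv f) z / deriv f z) +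
      ((ν.real {p} - π.real {p} : ℝ) : ℂ) / w =
    (s : ℂ) * p * (deriv (deriv f) z / deriv f z - (kern π z - kern ν z)) +
      (((s : ℂ) * p * kern π z - ((π.real {p} : ℝ) : ℂ) / w) -
        ((s : ℂ) * p * kern ν z - ((ν.real {p} : ℝ) : ℂ) / w)) by push_cast; ring]
  refine (norm_add_le _ _).trans (add_le_add ?_
    ((norm_sub_le _ _).trans ((add_le_add (hπ w hw hw2) (hν w hw hw2)).trans
      (le_of_eq (add_halves δ)))))
  rw [norm_mul, norm_mul, Complex.norm_real, Real.norm_eq_abs, abs_of_pos hs0, norm_coe_pt,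
    mul_one, mul_comm ε, mul_div_assoc]
  exact mul_le_mul_of_nonneg_left (hdec z hzr hz1) hs0.le

/-- Two decompositions have nearly the same atoms. -/
theorem atom_diff [IsFiniteMeasure π] [IsFiniteMeasure ν] [IsFiniteMeasure π'] [IsFiniteMeasure ν']
    (p : ↥(sphere (0 : ℂ) 1)) {ε r ε' r' : ℝ} (hr : r < 1) (hr' : r' < 1)
    (hdec : ∀ z : ℂ, r < ‖z‖ → ‖z‖ < 1 →
      ‖deriv (deriv f) z / deriv f z - (kern π z - kern ν z)‖ ≤ ε / (1 - ‖z‖))
    (hdec' : ∀ z : ℂ, r' < ‖z‖ → ‖z‖ < 1 →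
      ‖deriv (deriv f) z / deriv f z - (kern π' z - kern ν' z)‖ ≤ ε' / (1 - ‖z‖)) :
    |(ν.real {p} - π.real {p}) - (ν'.real {p} - π'.real {p})| ≤ ε + ε' := by
  refine le_of_forall_pos_le_add fun δ hδ => ?_
  obtain ⟨s, ⟨h1, h2⟩, hs1, hs0⟩ :=
    (((blowup (f := f) p hr hdec one_pos (half_pos hδ)).and
      (blowup (f := f) p hr' hdec' one_pos (half_pos hδ))).and
      ((show ∀ᶠ s : ℝ in 𝓝[>] 0, s < 1 from
        nhdsWithin_le_nhds (eventually_lt_nhds one_pos)).and self_mem_nhdsWithin)).exists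
  have hs : (0 : ℝ) < s := hs0
  have k1 := (h1 1 (by simp) (by norm_num)).2
  have k2 := (h2 1 (by simp) (by norm_num)).2
  have hn : 1 - ‖(p : ℂ) * (1 - s * 1)‖ = s := by
    rw [mul_one, norm_mul, norm_coe_pt, one_mul, ← Complex.ofReal_one, ← Complex.ofReal_sub,
      Complex.norm_real, Real.norm_eq_abs, abs_of_pos (by linarith)]
    ring
  rw [hn, div_one, mul_div_assoc, div_self hs.ne', mul_one] at k1 k2
  rw [← Real.norm_eq_abs, ← Complex.norm_real, Complex.ofReal_sub]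
  calc _ = ‖((s : ℂ) * p * (deriv (deriv f) ((p : ℂ) * (1 - s)) /
          deriv f ((p : ℂ) * (1 - s))) + ((ν.real {p} - π.real {p} : ℝ) : ℂ)) -
        ((s : ℂ) * p * (deriv (deriv f) ((p : ℂ) * (1 - s)) /
          deriv f ((p : ℂ) * (1 - s))) + ((ν'.real {p} - π'.real {p} : ℝ) : ℂ))‖ := by
        congr 1; ring
    _ ≤ _ := (norm_sub_le _ _).trans (by linarith)

/-- If the pre-Schwarzian is that of a power `w ^ m` with `m > 1` up to a small error at a small
scale, then the map is not injective. -/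
theorem not_injective_of_blowup (hd : DifferentiableOn ℂ f (ball 0 1))
    (hne : ∀ z ∈ ball (0 : ℂ) 1, deriv f z ≠ 0) (hinj : InjOn f (ball 0 1)) {p : ℂ} (hp : ‖p‖ = 1)
    {a s m M ρ η : ℝ} (ha : 0 < a) (hs : 0 < s) (hm : 1 ≤ m) (hmM : m ≤ M) (hρ : 0 < ρ)
    (hρre : a + ρ ≤ Real.cos (Real.pi / (m + 1))) (hρim : ρ < Real.sin (Real.pi / (m + 1)))
    (hρM : M * 2 ^ M * ρ ≤ 1 / 2) (hη : 0 ≤ η) (hη' : 2 ^ M * 18 * η < ρ / 16) (hη1 : η ≤ 1 / 6)
    (hmap : ∀ w : ℂ, a ≤ w.re → ‖w‖ ≤ 2 → p * (1 - s * w) ∈ ball (0 : ℂ) 1 ∧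
      ‖(s : ℂ) * p * (deriv (deriv f) (p * (1 - s * w)) / deriv f (p * (1 - s * w))) +
        (m : ℂ) / w‖ ≤ η) : False := by
  set K : Set ℂ := {w : ℂ | a ≤ w.re} ∩ closedBall 0 2 with hKdef
  have hK : ∀ {w : ℂ}, w ∈ K → a ≤ w.re ∧ ‖w‖ ≤ 2 := fun {w} h => ⟨h.1, mem_closedBall_zero_iff.1 h.2⟩
  have hKc : Convex ℝ K := (convex_halfSpace_re_ge a).inter (convex_closedBall _ _)
  have hKk : IsCompact K := (isCompact_closedBall (0 : ℂ) 2).inter_left
    (isClosed_le continuous_const Complex.continuous_re)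
  have ha1 : a ≤ 1 := by linarith [Real.cos_le_one (Real.pi / (m + 1))]
  have h1K : (1 : ℂ) ∈ K := ⟨by simpa using ha1, by simp⟩
  have hslit : ∀ w ∈ K, w ∈ Complex.slitPlane := fun w hw => Or.inl (ha.trans_le (hK hw).1)
  have hne0 : ∀ w ∈ K, w ≠ 0 := fun w hw => Complex.slitPlane_ne_zero (hslit w hw)
  have hd' : DifferentiableOn ℂ (deriv f) (ball 0 1) := hd.deriv isOpen_ball
  set z : ℂ → ℂ := fun w => p * (1 - s * w) with hz
  have hzK : ∀ w ∈ K, z w ∈ ball (0 : ℂ) 1 := fun w hw => (hmap w (hK hw).1 (hK hw).2).1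
  have hzd : ∀ w, HasDerivAt z (-((s : ℂ) * p)) w := fun w =>
    ((((hasDerivAt_id w).const_mul (s : ℂ)).const_sub 1).const_mul p).congr_deriv (by ring)
  set c : ℂ := deriv f (z 1) with hc
  have hc0 : c ≠ 0 := hne _ (hzK 1 h1K)
  set q : ℂ → ℂ := fun w => deriv f (z w) / c * w ^ (-(m : ℂ)) with hq
  set q' : ℂ → ℂ := fun w =>
    -q w * ((s : ℂ) * p * (deriv (deriv f) (z w) / deriv f (z w)) + (m : ℂ) / w) with hq'
  have hqd : ∀ w ∈ K, HasDerivAt q (q' w) w := by
    intro w hw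
    have h1 := ((hd'.differentiableAt (isOpen_ball.mem_nhds (hzK w hw))).hasDerivAt.comp w
      (hzd w)).div_const c
    have h2 := (hasDerivAt_id w).cpow_const (c := -(m : ℂ)) (hslit w hw)
    refine (h1.mul h2).congr_deriv ?_
    simp only [hq', hq, id, Function.comp_apply]
    rw [Complex.cpow_sub _ _ (hne0 w hw), Complex.cpow_one]
    have := hne _ (hzK w hw)
    have := hne0 w hw
    field_simp
    ring
  obtain ⟨w0, hw0, hmax⟩ := hKk.exists_isMaxOn ⟨1, h1K⟩
    (show ContinuousOn q K from fun w hw => (hqd w hw).continuousAt.continuousWithinAt).norm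
  have hq1 : q 1 = 1 := by
    simp only [hq, Complex.one_cpow, mul_one]
    exact div_self hc0
  have hdist : ∀ w ∈ K, ‖w - 1‖ ≤ 3 := fun w hw =>
    (norm_sub_le _ _).trans (by rw [norm_one]; linarith [(hK hw).2])
  have hmv : ∀ w ∈ K, ‖q w - 1‖ ≤ ‖q w0‖ * η * 3 := by
    intro w hw
    have := hKc.norm_image_sub_le_of_norm_hasDerivWithin_le
      (fun v hv => (hqd v hv).hasDerivWithinAt) (fun v hv => ?_) h1K hw (C := ‖q w0‖ * η)
    · rw [hq1] at this
      exact this.trans (mul_le_mul_of_nonneg_left (hdist w hw) (by positivity))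
    · simp only [hq', norm_mul, norm_neg]
      exact mul_le_mul (hmax hv) (hmap v (hK hv).1 (hK hv).2).2 (norm_nonneg _) (norm_nonneg _)
  have hbnd : ‖q w0‖ ≤ 2 := by
    have h1 := norm_le_norm_add_norm_sub' (q w0) 1
    rw [norm_one] at h1
    nlinarith [hmv w0 hw0, mul_le_mul_of_nonneg_left hη1 (norm_nonneg (q w0))]
  have hclose : ∀ w ∈ K, ‖q w - 1‖ ≤ 6 * η := fun w hw => (hmv w hw).trans (by nlinarith)
  -- the normalised map and the power map
  set H : ℂ → ℂ := fun w => (f (z w) - f (z 1)) / (-((s : ℂ) * p) * c) with hH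
  set G : ℂ → ℂ := fun w => (w ^ ((m : ℂ) + 1) - 1) / ((m : ℂ) + 1) with hG
  have hm1 : (m : ℂ) + 1 ≠ 0 := by
    rw [← Complex.ofReal_one, ← Complex.ofReal_add, Complex.ofReal_ne_zero]; linarith
  have hsp : (s : ℂ) * p ≠ 0 := mul_ne_zero (Complex.ofReal_ne_zero.2 hs.ne')
    (norm_pos_iff.1 (by rw [hp]; norm_num))
  have hGd : ∀ w ∈ K, HasDerivAt G (w ^ (m : ℂ)) w := fun w hw => by
    refine ((((hasDerivAt_id w).cpow_const (c := (m : ℂ) + 1) (hslit w hw)).sub_const 1).div_const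
      ((m : ℂ) + 1)).congr_deriv ?_
    rw [add_sub_cancel_right, id]
    field_simp
  have hHd : ∀ w ∈ K, HasDerivAt H (w ^ (m : ℂ) * q w) w := fun w hw => by
    refine (((hd.differentiableAt (isOpen_ball.mem_nhds (hzK w hw))).hasDerivAt.comp w
      (hzd w)).sub_const (f (z 1))).div_const (-((s : ℂ) * p) * c) |>.congr_deriv ?_
    simp only [hq]
    rw [Complex.cpow_neg]
    have : w ^ (m : ℂ) ≠ 0 := by simp [Complex.cpow_eq_zero_iff, hne0 w hw]
    field_simp
    rw [mul_assoc, mul_div_cancel_right₀ _ hsp]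
  have hpow : ∀ w ∈ K, ∀ b : ℝ, 0 ≤ b → b ≤ M → ‖w ^ (b : ℂ)‖ ≤ 2 ^ M := fun w hw b hb0 hbM => by
    rw [Complex.norm_cpow_real]
    exact (Real.rpow_le_rpow (norm_nonneg _) (hK hw).2 hb0).trans
      (Real.rpow_le_rpow_of_exponent_le one_le_two hbM)
  have hHG : ∀ w ∈ K, ‖H w - G w‖ ≤ 2 ^ M * 18 * η := by
    intro w hw
    have := hKc.norm_image_sub_le_of_norm_hasDerivWithin_le
      (f := fun w => H w - G w) (f' := fun w => w ^ (m : ℂ) * q w - w ^ (m : ℂ))
      (fun v hv => ((hHd v hv).sub (hGd v hv)).hasDerivWithinAt) (fun v hv => ?_) h1K hw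
      (C := 2 ^ M * (6 * η))
    · have h1 : H 1 - G 1 = 0 := by simp [hH, hG]
      rw [h1, sub_zero] at this
      exact this.trans ((mul_le_mul_of_nonneg_left (hdist w hw) (by positivity)).trans
        (le_of_eq (by ring)))
    · rw [← mul_sub_one, norm_mul]
      exact mul_le_mul (hpow v hv m (by linarith) hmM) (hclose v hv) (norm_nonneg _) (by positivity)
  -- the two points with equal image under the power map
  set θ : ℝ := Real.pi / (m + 1) with hθ
  set w1 : ℂ := Complex.exp ((θ : ℂ) * Complex.I) with hw1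
  set w2 : ℂ := Complex.exp (((-θ : ℝ) : ℂ) * Complex.I) with hw2
  have hθ0 : 0 < θ := by positivity
  have hθπ : θ < Real.pi := by
    rw [hθ, div_lt_iff₀ (by linarith)]; nlinarith [Real.pi_pos]
  have hρ1 : ρ < 1 := hρim.trans_le (Real.sin_le_one _)
  have hball : closedBall w1 ρ ⊆ K := fun w hw => by
    rw [mem_closedBall_iff_norm] at hw
    have h1 := (abs_le.1 ((Complex.abs_re_le_norm _).trans hw)).1
    rw [Complex.sub_re, hw1, Complex.exp_ofReal_mul_I_re] at h1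
    refine ⟨?_, mem_closedBall_zero_iff.2 ?_⟩
    · show a ≤ w.re
      linarith
    · have h2 := norm_le_norm_add_norm_sub' w w1
      rw [hw1, Complex.norm_exp_ofReal_mul_I] at h2
      linarith
  have hw1K : w1 ∈ K := hball (mem_closedBall_self hρ.le)
  have hw2K : w2 ∈ K := ⟨by
    show a ≤ w2.re
    rw [hw2, Complex.exp_ofReal_mul_I_re, Real.cos_neg]; linarith, by
    rw [mem_closedBall_zero_iff, hw2, Complex.norm_exp_ofReal_mul_I]; norm_num⟩
  have hθm : (θ : ℂ) * ((m : ℂ) + 1) = Real.pi := by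
    rw [hθ]; push_cast; field_simp
  have hp1 : w1 ^ ((m : ℂ) + 1) = -1 := by
    rw [Complex.cpow_def_of_ne_zero (hne0 _ hw1K), hw1, Complex.log_exp (by simp; linarith)
      (by simp; linarith)]
    rw [mul_right_comm, hθm, Complex.exp_pi_mul_I]
  have hp2 : w2 ^ ((m : ℂ) + 1) = -1 := by
    rw [Complex.cpow_def_of_ne_zero (hne0 _ hw2K), hw2, Complex.log_exp (by simp; linarith)
      (by simp; linarith)]
    rw [mul_right_comm, Complex.ofReal_neg, neg_mul, hθm, neg_mul, Complex.exp_neg,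
      Complex.exp_pi_mul_I]
    norm_num
  have hG12 : G w2 = G w1 := by simp only [hG, hp1, hp2]
  -- the power map moves the small circle away from the common value
  have hsph : ∀ w ∈ sphere w1 ρ, 3 * ρ / 8 ≤ ‖H w - H w1‖ := by
    intro w hw
    have hwB : w ∈ closedBall w1 ρ := sphere_subset_closedBall hw
    have hlin := (convex_closedBall w1 ρ).norm_image_sub_le_of_norm_hasDerivWithin_le
      (f := fun v => G v - w1 ^ (m : ℂ) * v) (f' := fun v => v ^ (m : ℂ) - w1 ^ (m : ℂ))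
      (fun v hv => (((hGd v (hball hv)).sub ((hasDerivAt_id v).const_mul _)).congr_deriv
        (by rw [mul_one])).hasDerivWithinAt)
      (fun v hv => ?_) (mem_closedBall_self hρ.le) hwB (C := M * 2 ^ M * ρ)
    swap
    · have := (convex_closedBall w1 ρ).norm_image_sub_le_of_norm_hasDerivWithin_le
        (f := fun u => u ^ (m : ℂ)) (f' := fun u => (m : ℂ) * u ^ ((m : ℂ) - 1))
        (fun u hu => (((hasDerivAt_id u).cpow_const (c := (m : ℂ)) (hslit u (hball hu))).congr_deriv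
          (by simp)).hasDerivWithinAt)
        (fun u hu => ?_) (mem_closedBall_self hρ.le) hv (C := M * 2 ^ M)
      · refine this.trans (mul_le_mul_of_nonneg_left (mem_closedBall_iff_norm.1 hv) ?_)
        have : 0 ≤ M := by linarith
        positivity
      · rw [norm_mul, Complex.norm_real, Real.norm_eq_abs, abs_of_nonneg (by linarith),
          ← Complex.ofReal_one, ← Complex.ofReal_sub]
        exact mul_le_mul hmM (hpow u (hball hu) (m - 1) (by linarith) (by linarith))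
          (norm_nonneg _) (by linarith)
    have hwn : ‖w - w1‖ = ρ := mem_sphere_iff_norm.1 hw
    rw [hwn] at hlin
    have hw1m : ‖w1 ^ (m : ℂ) * (w - w1)‖ = ρ := by
      rw [norm_mul, hwn, Complex.norm_cpow_real, hw1, Complex.norm_exp_ofReal_mul_I, Real.one_rpow,
        one_mul]
    have hlow : ρ / 2 ≤ ‖G w - G w1‖ := by
      have h1 := norm_le_norm_add_norm_sub (G w - G w1) (w1 ^ (m : ℂ) * (w - w1))
      rw [hw1m] at h1
      have h2 : G w - w1 ^ (m : ℂ) * w - (G w1 - w1 ^ (m : ℂ) * w1) =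
          G w - G w1 - w1 ^ (m : ℂ) * (w - w1) := by ring
      rw [h2] at hlin
      nlinarith
    have h3 : ‖G w - G w1‖ ≤ ‖H w - H w1‖ + (‖H w - G w‖ + ‖H w1 - G w1‖) := by
      calc ‖G w - G w1‖ = ‖(H w - H w1) - ((H w - G w) - (H w1 - G w1))‖ := by congr 1; ring
        _ ≤ _ := (norm_sub_le _ _).trans (by gcongr; exact norm_sub_le _ _)
    linarith [hHG w (hball hwB), hHG w1 hw1K]
  have hHdc : DiffContOnCl ℂ H (ball w1 ρ) :=
    DifferentiableOn.diffContOnCl_ball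
      (fun w hw => (hHd w (hball hw)).differentiableAt.differentiableWithinAt) subset_rfl
  have hnc : ∃ᶠ w in 𝓝 w1, H w ≠ H w1 := by
    rw [Filter.Frequently]
    intro h
    have hev : H =ᶠ[𝓝 w1] fun _ => H w1 := h.mono fun w hw => not_not.1 hw
    have h1 := ((hasDerivAt_const w1 (H w1)).congr_of_eventuallyEq hev).unique (hHd w1 hw1K)
    have h2 : q w1 ≠ 0 := fun h0 => by
      have := hclose w1 hw1K
      rw [h0, zero_sub, norm_neg, norm_one] at this
      nlinarith [Real.one_le_rpow one_le_two (show (0 : ℝ) ≤ M by linarith)]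
    exact mul_ne_zero (by simp [Complex.cpow_eq_zero_iff, hne0 w1 hw1K]) h2 h1.symm
  have hsub := hHdc.ball_subset_image_closedBall hρ hsph hnc
  have hmem : H w2 ∈ ball (H w1) (3 * ρ / 8 / 2) := by
    rw [mem_ball_iff_norm]
    calc ‖H w2 - H w1‖ = ‖(H w2 - G w2) - (H w1 - G w1)‖ := by rw [hG12]; congr 1; ring
      _ ≤ _ := norm_sub_le _ _
      _ < _ := by linarith [hHG w2 hw2K, hHG w1 hw1K]
  obtain ⟨w, hw, hwe⟩ := hsub hmem
  have hfz : f (z w) = f (z w2) :=
    sub_left_inj.1 ((div_left_inj' (mul_ne_zero (neg_ne_zero.2 hsp) hc0)).1 hwe)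
  have hzz := hinj (hzK w (hball hw)) (hzK w2 hw2K) hfz
  have hww : w = w2 := by
    simp only [hz] at hzz
    have := mul_left_cancel₀ (norm_pos_iff.1 (by rw [hp]; norm_num)) hzz
    exact mul_left_cancel₀ (Complex.ofReal_ne_zero.2 hs.ne') (sub_right_inj.1 this)
  rw [mem_closedBall_iff_norm] at hw
  have him := (abs_le.1 ((Complex.abs_im_le_norm _).trans hw)).1
  rw [hww, Complex.sub_im, hw1, hw2, Complex.exp_ofReal_mul_I_im, Complex.exp_ofReal_mul_I_im,
    Real.sin_neg] at him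
  have : 0 < Real.sin θ := Real.sin_pos_of_pos_of_lt_pi hθ0 hθπ
  linarith

/-- The net atom of every decomposition is at most `1 + 2ε`. -/
theorem atom_le (hf : IsCornerMap f) [IsFiniteMeasure π] [IsFiniteMeasure ν]
    (p : ↥(sphere (0 : ℂ) 1)) {ε r : ℝ} (hr : r < 1) (hε : 0 < ε)
    (hdec : ∀ z : ℂ, r < ‖z‖ → ‖z‖ < 1 →
      ‖deriv (deriv f) z / deriv f z - (kern π z - kern ν z)‖ ≤ ε / (1 - ‖z‖)) :
    ν.real {p} - π.real {p} ≤ 1 + 2 * ε := by
  obtain ⟨hd, hinj, hne, happ⟩ := hf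
  by_contra! hcon
  set m0 := ν.real {p} - π.real {p}
  set M : ℝ := m0 + 2 * ε with hM
  have hM0 : 0 < M := by linarith
  set c0 : ℝ := Real.cos (Real.pi / (2 + ε / 2)) with hc0
  set s0 : ℝ := Real.sin (Real.pi / (M + 1)) with hs0
  have hc0p : 0 < c0 := Real.cos_pos_of_mem_Ioo ⟨by
    have : 0 < Real.pi / (2 + ε / 2) := by positivity
    linarith [Real.pi_pos], by gcongr; linarith⟩
  have hs0p : 0 < s0 := Real.sin_pos_of_pos_of_lt_pi (by positivity) (by
    rw [div_lt_iff₀ (by linarith)]; nlinarith [Real.pi_pos])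
  set a : ℝ := c0 / 2 with hadef
  set ρ : ℝ := min (c0 / 2) (min (s0 / 2) (1 / (2 * M * 2 ^ M))) with hρdef
  have ha : 0 < a := by positivity
  have hρ : 0 < ρ := lt_min ha (lt_min (by positivity) (by positivity))
  set η : ℝ := min (1 / 6) (ρ / (32 * (2 ^ M * 18))) with hηdef
  have hη : 0 < η := lt_min (by norm_num) (by positivity)
  set e : ℝ := min (ε / 2) (η * a / 4) with hedef
  have he : 0 < e := lt_min (by positivity) (by positivity)
  obtain ⟨π', ν', hπ', hν', r', hr', hdec'⟩ := happ e he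
  set m := ν'.real {p} - π'.real {p}
  have hdiff := abs_le.1 (atom_diff (f := f) p hr hr' hdec hdec')
  have he2 : e ≤ ε / 2 := min_le_left _ _
  have hm : 1 + ε / 2 ≤ m := by linarith [hdiff.2]
  have hmM : m ≤ M := by linarith [hdiff.1]
  obtain ⟨s, hev, hs⟩ := ((blowup (f := f) p hr' hdec' ha (half_pos hη)).and
    self_mem_nhdsWithin).exists
  have hs0' : (0 : ℝ) < s := hs
  have hθle : Real.pi / (m + 1) ≤ Real.pi / (2 + ε / 2) :=
    div_le_div_of_nonneg_left Real.pi_pos.le (by positivity) (by linarith)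
  have hθ2 : Real.pi / (m + 1) ≤ Real.pi / 2 :=
    div_le_div_of_nonneg_left Real.pi_pos.le (by norm_num) (by linarith)
  refine not_injective_of_blowup hd hne hinj (norm_coe_pt p) (a := a) (s := s) (m := m) (M := M)
    (ρ := ρ) (η := η) ha hs0' (by linarith) hmM hρ ?_ ?_ ?_ hη.le ?_ (min_le_left _ _) ?_
  · have h1 : c0 ≤ Real.cos (Real.pi / (m + 1)) := Real.cos_le_cos_of_nonneg_of_le_pi
      (div_nonneg Real.pi_pos.le (by linarith)) (by
        rw [div_le_iff₀ (by positivity)]; nlinarith [Real.pi_pos]) hθle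
    linarith [min_le_left (c0 / 2) (min (s0 / 2) (1 / (2 * M * 2 ^ M)))]
  · have h1 : s0 ≤ Real.sin (Real.pi / (m + 1)) := Real.sin_le_sin_of_le_of_le_pi_div_two
      (by linarith [Real.pi_pos, show 0 ≤ Real.pi / (M + 1) by positivity]) hθ2
      (div_le_div_of_nonneg_left Real.pi_pos.le (by linarith) (by linarith))
    linarith [(min_le_right (c0 / 2) _).trans (min_le_left (s0 / 2) (1 / (2 * M * 2 ^ M)))]
  · have h1 : ρ ≤ 1 / (2 * M * 2 ^ M) := (min_le_right _ _).trans (min_le_right _ _)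
    rw [le_div_iff₀ (by positivity)] at h1
    linarith
  · have h1 : η ≤ ρ / (32 * (2 ^ M * 18)) := min_le_right _ _
    rw [le_div_iff₀ (by positivity)] at h1
    linarith
  · intro w hw hw2
    obtain ⟨h1, h2⟩ := hev w hw hw2
    refine ⟨mem_ball_zero_iff.2 (by nlinarith [mul_pos hs0' ha]), h2.trans ?_⟩
    have h3 : e * s / (1 - ‖(p : ℂ) * (1 - s * w)‖) ≤ e * s / (s * a / 2) :=
      div_le_div_of_nonneg_left (by positivity) (by positivity) h1
    have h4 : e * s / (s * a / 2) ≤ η / 2 := by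
      rw [div_le_iff₀ (by positivity)]
      nlinarith [mul_le_mul_of_nonneg_left (min_le_right (ε / 2) (η * a / 4)) hs0'.le]
    linarith

end Vale.Agent.P142
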