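import Mathlib

/-!
# P142: maps whose pre-Schwarzian is close to a Cauchy transform of a measure on the circle
-/

noncomputable section

open Metric MeasureTheory

namespace Vale.Agent.P142

/-- The Cauchy transform `z ↦ ∫ (ξ - z)⁻¹ dμ(ξ)` of a measure on the unit circle. -/
def kern (μ : Measure ↥(sphere (0 : ℂ) 1)) (z : ℂ) : ℂ :=
  ∫ ξ, ((ξ : ℂ) - z)⁻¹ ∂μ

/-- `f` is univalent on the disk and, for every `ε > 0`, its pre-Schwarzian `f''/f'` is within
`ε/(1 - |z|)` near the circle of the Cauchy transform of a finite signed measure, written as a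
difference of two finite measures. -/
def IsCornerMap (f : ℂ → ℂ) : Prop :=
  DifferentiableOn ℂ f (ball 0 1) ∧ Set.InjOn f (ball 0 1) ∧
    (∀ z ∈ ball (0 : ℂ) 1, deriv f z ≠ 0) ∧
    ∀ ε : ℝ, 0 < ε → ∃ π ν : Measure ↥(sphere (0 : ℂ) 1), IsFiniteMeasure π ∧ IsFiniteMeasure ν ∧
      ∃ r : ℝ, r < 1 ∧ ∀ z : ℂ, r < ‖z‖ → ‖z‖ < 1 →
        ‖deriv (deriv f) z / deriv f z - (kern π z - kern ν z)‖ ≤ ε / (1 - ‖z‖)

end Vale.Agent.P142
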