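import Vale.Agent.P142.Corner.Atom

/-!
# P142: lower bound for the derivative along radii
-/

noncomputable section

open Metric MeasureTheory Set Filter Topology ComplexConjugate

namespace Vale.Agent.P142

variable {f : ℂ → ℂ} {μ π ν : Measure ↥(sphere (0 : ℂ) 1)}

/-- The potential `∫ log (2/|ξ - z|) dμ(ξ)`. -/
def pot (μ : Measure ↥(sphere (0 : ℂ) 1)) (z : ℂ) : ℝ :=
  ∫ ξ, (Real.log 2 - Real.log ‖(ξ : ℂ) - z‖) ∂μ

theorem pot_term_nonneg (ξ : ↥(sphere (0 : ℂ) 1)) {z : ℂ} (hz : ‖z‖ < 1) :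
    0 ≤ Real.log 2 - Real.log ‖(ξ : ℂ) - z‖ := by
  have h1 := dist_pt_ge ξ z
  have h2 := norm_sub_le (ξ : ℂ) z
  rw [norm_coe_pt] at h2
  linarith [Real.log_le_log (show 0 < ‖(ξ : ℂ) - z‖ by linarith)
    (show ‖(ξ : ℂ) - z‖ ≤ 2 by linarith)]

theorem continuous_pot_term {z : ℂ} (hz : ‖z‖ < 1) :
    Continuous fun ξ : ↥(sphere (0 : ℂ) 1) => Real.log 2 - Real.log ‖(ξ : ℂ) - z‖ :=
  continuous_const.sub (Continuous.log (by fun_prop) fun ξ h => by
    linarith [dist_pt_ge ξ z])

theorem integrable_pot_term [IsFiniteMeasure μ] {z : ℂ} (hz : ‖z‖ < 1) :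
    Integrable (fun ξ : ↥(sphere (0 : ℂ) 1) => Real.log 2 - Real.log ‖(ξ : ℂ) - z‖) μ :=
  (continuous_pot_term hz).integrable_of_hasCompactSupport (HasCompactSupport.of_compactSpace _)

theorem pot_nonneg [IsFiniteMeasure μ] {z : ℂ} (hz : ‖z‖ < 1) : 0 ≤ pot μ z :=
  integral_nonneg fun ξ => pot_term_nonneg ξ hz

theorem pot_le [IsFiniteMeasure μ] {z : ℂ} (hz : ‖z‖ < 1) :
    pot μ z ≤ μ.real univ * (Real.log 2 - Real.log (1 - ‖z‖)) := by
  refine (integral_mono (integrable_pot_term hz)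
    (integrable_const (Real.log 2 - Real.log (1 - ‖z‖))) fun ξ => ?_).trans
    (le_of_eq (by rw [integral_const, smul_eq_mul]))
  exact sub_le_sub_left (Real.log_le_log (by linarith) (dist_pt_ge ξ z)) _

/-- The logarithmic derivative of the modulus of a curve. -/
theorem hasDerivAt_log_norm {γ : ℝ → ℂ} {γ' : ℂ} {x : ℝ} (hγ : HasDerivAt γ γ' x)
    (h0 : γ x ≠ 0) : HasDerivAt (fun t => Real.log ‖γ t‖) (γ' / γ x).re x := by
  have h1 : HasDerivAt (fun t => Real.log (‖γ t‖ ^ 2) / 2) _ x :=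
    (hγ.norm_sq.log (pow_ne_zero 2 (norm_ne_zero_iff.2 h0))).div_const 2
  have h2 : (fun t => Real.log (‖γ t‖ ^ 2) / 2) = fun t => Real.log ‖γ t‖ :=
    funext fun t => by rw [Real.log_pow]; push_cast; ring
  rw [h2] at h1
  refine h1.congr_deriv ?_
  rw [Complex.inner, Complex.sq_norm]
  simp [Complex.div_re, Complex.mul_re]
  ring

theorem hasDerivAt_pot [IsFiniteMeasure μ] {e : ℂ} (he : ‖e‖ = 1) {t : ℝ} (ht : 0 ≤ t)
    (ht1 : t < 1) :
    HasDerivAt (fun x : ℝ => pot μ (x * e)) (e * kern μ (t * e)).re t := by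
  have hint := integrable_kern (μ := μ) (show ‖(t : ℂ) * e‖ < 1 by
    rw [norm_mul, he, mul_one, Complex.norm_real, Real.norm_eq_abs, abs_of_nonneg ht]; exact ht1)
  set d : ℝ := (1 - t) / 2 with hd
  have hin : ∀ x ∈ ball t d, ‖(x : ℂ) * e‖ < 1 ∧
      ∀ ξ : ↥(sphere (0 : ℂ) 1), d ≤ ‖(ξ : ℂ) - x * e‖ := by
    intro x hx
    rw [mem_ball, Real.dist_eq, abs_lt] at hx
    have h1 : ‖(x : ℂ) * e‖ ≤ 1 - d := by
      rw [norm_mul, he, mul_one, Complex.norm_real, Real.norm_eq_abs, abs_le]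
      constructor <;> linarith [hx.1, hx.2]
    exact ⟨by linarith, fun ξ => le_trans (by linarith) (dist_pt_ge ξ _)⟩
  have hd0 : 0 < d := by linarith
  have h := hasDerivAt_integral_of_dominated_loc_of_deriv_le (μ := μ)
    (F := fun (x : ℝ) (ξ : ↥(sphere (0 : ℂ) 1)) => Real.log 2 - Real.log ‖(ξ : ℂ) - x * e‖)
    (F' := fun x ξ => (e * ((ξ : ℂ) - x * e)⁻¹).re) (x₀ := t) (bound := fun _ => 1 / d)
    (ball_mem_nhds t hd0) ?_ (integrable_pot_term (hin t (mem_ball_self hd0)).1)
    ?_ ?_ (integrable_const _) ?_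
  · refine h.2.congr_deriv ?_
    rw [kern, ← integral_const_mul]
    exact integral_re (hint.const_mul e)
  · filter_upwards [ball_mem_nhds t hd0] with x hx
    exact (continuous_pot_term (hin x hx).1).aestronglyMeasurable
  · exact (Complex.continuous_re.comp (continuous_const.mul ((by fun_prop : Continuous
      fun ξ : ↥(sphere (0 : ℂ) 1) => (ξ : ℂ) - t * e).inv₀ fun ξ h0 => by
        have := (hin t (mem_ball_self hd0)).2 ξ
        rw [h0, norm_zero] at this; linarith))).aestronglyMeasurable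
  · refine Eventually.of_forall fun ξ x hx => ?_
    rw [Real.norm_eq_abs]
    refine (Complex.abs_re_le_norm _).trans ?_
    rw [norm_mul, he, one_mul, norm_inv, one_div]
    exact inv_anti₀ hd0 ((hin x hx).2 ξ)
  · refine Eventually.of_forall fun ξ x hx => ?_
    have hne : (ξ : ℂ) - x * e ≠ 0 := fun h0 => by
      have := (hin x hx).2 ξ
      rw [h0, norm_zero] at this; linarith
    have h1 : HasDerivAt (fun y : ℝ => (ξ : ℂ) - y * e) (-e) x := by
      simpa using (((hasDerivAt_id x).ofReal_comp).mul_const e).const_sub (ξ : ℂ)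
    refine ((hasDerivAt_log_norm h1 hne).const_sub (Real.log 2)).congr_deriv ?_
    rw [div_eq_mul_inv, neg_mul, Complex.neg_re, neg_neg]

/-- If every net atom is at most `B`, the same transform comes from measures with atoms at most `B`. -/
theorem exists_reduced [IsFiniteMeasure π] [IsFiniteMeasure ν] {B : ℝ} (hB : 0 ≤ B)
    (h : ∀ p, ν.real {p} - π.real {p} ≤ B) :
    ∃ π' ν' : Measure ↥(sphere (0 : ℂ) 1), IsFiniteMeasure π' ∧ IsFiniteMeasure ν' ∧
      (∀ z : ℂ, ‖z‖ < 1 → kern π z - kern ν z = kern π' z - kern ν' z) ∧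
      ∀ p, ν'.real {p} ≤ B := by
  set j := (ν.toSignedMeasure - π.toSignedMeasure).toJordanDecomposition with hj
  have hs : j.posPart.toSignedMeasure - j.negPart.toSignedMeasure =
      ν.toSignedMeasure - π.toSignedMeasure :=
    SignedMeasure.toSignedMeasure_toJordanDecomposition _
  have heq : j.posPart + π = ν + j.negPart := by
    rw [← Measure.toSignedMeasure_eq_toSignedMeasure_iff, Measure.toSignedMeasure_add,
      Measure.toSignedMeasure_add]
    exact sub_eq_sub_iff_add_eq_add.1 hs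
  refine ⟨j.negPart, j.posPart, inferInstance, inferInstance, fun z hz => ?_, fun p => ?_⟩
  · have h1 := congrArg (fun m => kern m z) heq
    simp only [kern_add hz] at h1
    linear_combination h1
  · obtain ⟨S, -, hS1, hS2⟩ := j.mutuallySingular
    by_cases hp : p ∈ S
    · rw [measureReal_def, measure_mono_null (singleton_subset_iff.2 hp) hS1]
      simpa using hB
    · have h0 : j.negPart.real {p} = 0 := by
        rw [measureReal_def, measure_mono_null (singleton_subset_iff.2 (show p ∈ Sᶜ from hp)) hS2]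
        simp
      have h1 : (j.posPart + π).real {p} = (ν + j.negPart).real {p} := by rw [heq]
      rw [measureReal_add_apply, measureReal_add_apply, h0] at h1
      linarith [h p]

/-- `|f'|` is bounded below by an exponential of a potential with small atoms. -/
theorem deriv_lower (hf : IsCornerMap f) {ε : ℝ} (hε : 0 < ε) :
    ∃ ν : Measure ↥(sphere (0 : ℂ) 1), IsFiniteMeasure ν ∧ (∀ p, ν.real {p} ≤ 1 + 2 * ε) ∧
      ∃ C : ℝ, ∀ z : ℂ, ‖z‖ < 1 →
        -Real.log ‖deriv f z‖ ≤ C - ε * Real.log (1 - ‖z‖) + pot ν z := by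
  have hf' := hf
  obtain ⟨hd, -, hne, happ⟩ := hf
  obtain ⟨π, ν, hπ, hν, r, hr, hdec⟩ := happ ε hε
  obtain ⟨π', ν', hπ', hν', hk, hat⟩ := exists_reduced (π := π) (ν := ν) (B := 1 + 2 * ε)
    (by positivity) fun p => atom_le hf' p hr hε hdec
  refine ⟨ν', hν', hat, ?_⟩
  have hd' : DifferentiableOn ℂ (deriv f) (ball 0 1) := hd.deriv isOpen_ball
  set r0 : ℝ := (max r 0 + 1) / 2 with hr0
  have hmax : max r 0 < 1 := max_lt hr one_pos
  have hr00 : 0 < r0 := by linarith [le_max_right r 0]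
  have hr01 : r0 < 1 := by linarith
  have hrr : r < r0 := by linarith [le_max_left r 0]
  -- the compact part
  have hsub : closedBall (0 : ℂ) r0 ⊆ ball 0 1 := closedBall_subset_ball hr01
  obtain ⟨A, hA⟩ := (isCompact_closedBall (0 : ℂ) r0).exists_bound_of_continuousOn
    ((hd'.continuousOn.mono hsub).norm.log fun z hz => norm_ne_zero_iff.2 (hne z (hsub hz)))
  set C0 : ℝ := A + π'.real univ * (Real.log 2 - Real.log (1 - r0)) with hC0
  have hC0A : A ≤ C0 := le_add_of_nonneg_right (mul_nonneg measureReal_nonneg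
    (by linarith [Real.log_nonneg (one_le_two : (1 : ℝ) ≤ 2),
          Real.log_nonpos (show (0 : ℝ) ≤ 1 - r0 by linarith) (show 1 - r0 ≤ 1 by linarith)]))
  refine ⟨C0, fun z hz => ?_⟩
  have hP := pot_nonneg (μ := ν') hz
  have hlog : Real.log (1 - ‖z‖) ≤ 0 := Real.log_nonpos (by linarith) (by linarith [norm_nonneg z])
  have hεl : 0 ≤ -ε * Real.log (1 - ‖z‖) := mul_nonneg_of_nonpos_of_nonpos (by linarith) hlog
  by_cases hzr : ‖z‖ ≤ r0
  · have h1 := abs_le.1 ((Real.norm_eq_abs _).symm.trans_le (hA z (mem_closedBall_zero_iff.2 hzr)))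
    linarith [h1.1]
  rw [not_le] at hzr
  set t1 : ℝ := ‖z‖ with ht1
  have ht0 : 0 < t1 := hr00.trans hzr
  set e : ℂ := z / (t1 : ℂ) with he
  have hen : ‖e‖ = 1 := by
    rw [he, norm_div, Complex.norm_real, Real.norm_eq_abs, abs_of_pos ht0, div_self ht0.ne']
  have hze : (t1 : ℂ) * e = z := by
    rw [he, mul_div_cancel₀ _ (Complex.ofReal_ne_zero.2 ht0.ne')]
  set Φ : ℝ → ℝ := fun t => Real.log ‖deriv f (t * e)‖ + pot ν' (t * e) - pot π' (t * e) -
    ε * Real.log (1 - t) with hΦ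
  have hmono : MonotoneOn Φ (Icc r0 t1) := by
    have hder : ∀ t ∈ Icc r0 t1, HasDerivAt Φ ((deriv (deriv f) (t * e) * e / deriv f (t * e)).re +
        (e * kern ν' (t * e)).re - (e * kern π' (t * e)).re - ε * (-1 / (1 - t))) t := by
      intro t ht
      have h0 : 0 ≤ t := hr00.le.trans ht.1
      have h1 : t < 1 := ht.2.trans_lt hz
      have hn : ‖(t : ℂ) * e‖ = t := by
        rw [norm_mul, hen, mul_one, Complex.norm_real, Real.norm_eq_abs, abs_of_nonneg h0]
      have hin : (t : ℂ) * e ∈ ball (0 : ℂ) 1 := mem_ball_zero_iff.2 (hn.trans_lt h1)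
      have hray : HasDerivAt (fun x : ℝ => (x : ℂ) * e) e t := by
        simpa using ((hasDerivAt_id t).ofReal_comp).mul_const e
      have hγ : HasDerivAt (fun x : ℝ => deriv f (x * e)) (deriv (deriv f) (t * e) * e) t :=
        HasDerivAt.comp (h := fun x : ℝ => (x : ℂ) * e) t
          (hd'.differentiableAt (isOpen_ball.mem_nhds hin)).hasDerivAt hray
      exact (((hasDerivAt_log_norm hγ (hne _ hin)).add (hasDerivAt_pot hen h0 h1)).sub
        (hasDerivAt_pot hen h0 h1)).sub
        ((((hasDerivAt_id t).const_sub 1).log (show 1 - t ≠ 0 by linarith)).const_mul ε)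
    refine monotoneOn_of_hasDerivWithinAt_nonneg (convex_Icc _ _)
      (fun t ht => (hder t ht).continuousAt.continuousWithinAt)
      (fun t ht => (hder t (interior_subset ht)).hasDerivWithinAt) fun t ht => ?_
    have ht' := interior_subset (s := Icc r0 t1) ht
    have h1 : t < 1 := ht'.2.trans_lt hz
    have hn : ‖(t : ℂ) * e‖ = t := by
      rw [norm_mul, hen, mul_one, Complex.norm_real, Real.norm_eq_abs,
        abs_of_nonneg (hr00.le.trans ht'.1)]
    have hb := hdec ((t : ℂ) * e) (by rw [hn]; linarith [ht'.1]) (by rw [hn]; exact h1)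
    rw [hk _ (by rw [hn]; exact h1), hn] at hb
    have h2 := (abs_le.1 ((Complex.abs_re_le_norm _).trans (le_of_eq_of_le (show
      ‖e * (deriv (deriv f) (t * e) / deriv f (t * e) - (kern π' (t * e) - kern ν' (t * e)))‖ = _ by
        rw [norm_mul, hen, one_mul]) hb))).1
    have h3 : (deriv (deriv f) (t * e) * e / deriv f (t * e)).re +
        (e * kern ν' (t * e)).re - (e * kern π' (t * e)).re =
      (e * (deriv (deriv f) (t * e) / deriv f (t * e) -
        (kern π' (t * e) - kern ν' (t * e)))).re := by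
      simp only [mul_sub, Complex.sub_re]
      rw [show deriv (deriv f) (t * e) * e / deriv f (t * e) =
        e * (deriv (deriv f) (t * e) / deriv f (t * e)) by ring]
      ring
    rw [h3, neg_div, mul_neg, sub_neg_eq_add, mul_one_div]
    linarith
  have hm := hmono (left_mem_Icc.2 hzr.le) (right_mem_Icc.2 hzr.le) hzr.le
  simp only [hΦ, hze] at hm
  have hn0 : ‖(r0 : ℂ) * e‖ = r0 := by
    rw [norm_mul, hen, mul_one, Complex.norm_real, Real.norm_eq_abs, abs_of_pos hr00]
  have h1 := abs_le.1 ((Real.norm_eq_abs _).symm.trans_le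
    (hA ((r0 : ℂ) * e) (mem_closedBall_zero_iff.2 hn0.le)))
  have h2 := pot_le (μ := π') (z := (r0 : ℂ) * e) (hn0.trans_lt hr01)
  rw [hn0] at h2
  have h3 := pot_nonneg (μ := ν') (z := (r0 : ℂ) * e) (hn0.trans_lt hr01)
  have h4 := pot_nonneg (μ := π') hz
  have h5 : 0 ≤ -ε * Real.log (1 - r0) :=
    mul_nonneg_of_nonpos_of_nonpos (by linarith) (Real.log_nonpos (by linarith) (by linarith))
  linarith [h1.1]

end Vale.Agent.P142
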