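import Vale.Agent.P142.Disk
import Vale.Agent.P142.Corner.Growth

/-!
# P142: area integrability of powers of the derivative
-/

noncomputable section

open Metric MeasureTheory Set Filter Topology
open scoped ENNReal

namespace Vale.Agent.P142

variable {f : ℂ → ℂ} {ν : Measure ↥(sphere (0 : ℂ) 1)}

/-- The weight with a power singularity at a point of the circle has area integral bounded
independently of the point. -/
theorem weight_bound {a b : ℝ} (hb0 : 0 ≤ b) (hb : b < 2) (hab : a + b / 2 < 1) :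
    ∃ K : ℝ≥0∞, K ≠ ⊤ ∧ ∀ ξ : ↥(sphere (0 : ℂ) 1),
      ∫⁻ z in ball (0 : ℂ) 1, ENNReal.ofReal ((1 - ‖z‖) ^ (-a) * ‖(ξ : ℂ) - z‖ ^ (-b)) ≤ K := by
  set W : ℂ → ℂ := fun w => (1 - w) ^ ((-(b / 2) : ℝ) : ℂ) with hW
  have hre : ∀ w ∈ ball (0 : ℂ) 1, 0 < (1 - w).re := fun w hw => by
    rw [mem_ball_zero_iff] at hw
    rw [Complex.sub_re, Complex.one_re]
    linarith [Complex.re_le_norm w]
  have hd : DifferentiableOn ℂ W (ball 0 1) := fun w hw =>
    (((differentiableAt_id.const_sub 1)).cpow (differentiableAt_const _)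
      (Or.inl (hre w hw))).differentiableWithinAt
  set c : ℝ := Real.cos (Real.pi / 2 * (b / 2)) with hc
  have hbπ : Real.pi / 2 * (b / 2) < Real.pi / 2 :=
    mul_lt_of_lt_one_right (by positivity) (by linarith)
  have hc0 : 0 < c := Real.cos_pos_of_mem_Ioo ⟨by
    linarith [Real.pi_pos, show 0 ≤ Real.pi / 2 * (b / 2) by positivity], hbπ⟩
  have hWre : ∀ w ∈ ball (0 : ℂ) 1, ‖1 - w‖ ^ (-(b / 2)) * c ≤ (W w).re := fun w hw => by
    simp only [hW, Complex.cpow_ofReal_re]
    refine mul_le_mul_of_nonneg_left ?_ (Real.rpow_nonneg (norm_nonneg _) _)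
    rw [← Real.cos_abs ((1 - w).arg * -(b / 2)), abs_mul, abs_neg,
      abs_of_nonneg (show 0 ≤ b / 2 by positivity)]
    refine Real.cos_le_cos_of_nonneg_of_le_pi (by positivity) (by linarith [Real.pi_pos]) ?_
    exact mul_le_mul_of_nonneg_right (Complex.abs_arg_lt_pi_div_two_iff.2
      (Or.inl (hre w hw))).le (by positivity)
  have hint := integrableOn_weight hd
    (fun w hw => le_trans (mul_nonneg (Real.rpow_nonneg (norm_nonneg _) _) hc0.le) (hWre w hw)) hab
  refine ⟨∫⁻ w in ball (0 : ℂ) 1,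
    ENNReal.ofReal (c⁻¹ * ((W w).re * (1 - ‖w‖) ^ (-(a + b / 2)))),
    (hint.const_mul c⁻¹).lintegral_lt_top.ne, fun ξ => ?_⟩
  set e := rotation (⟨(ξ : ℂ), ξ.2⟩ : Circle) with he
  have hpre : e ⁻¹' ball (0 : ℂ) 1 = ball 0 1 := by
    ext w; simp
  rw [← e.measurePreserving.setLIntegral_comp_preimage_emb e.toHomeomorph.measurableEmbedding,
    hpre]
  refine setLIntegral_mono' measurableSet_ball fun w hw => ENNReal.ofReal_le_ofReal ?_
  have hw1 : ‖w‖ < 1 := mem_ball_zero_iff.1 hw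
  have h1 : ‖(ξ : ℂ) - e w‖ = ‖1 - w‖ := by
    rw [show e w = (ξ : ℂ) * w from rotation_apply _ _, ← mul_one_sub, norm_mul, norm_coe_pt,
      one_mul]
  rw [e.norm_map, h1]
  have h0 : 0 < 1 - ‖w‖ := by linarith
  have h2 : 1 - ‖w‖ ≤ ‖1 - w‖ := by
    have := norm_sub_norm_le (1 : ℂ) w
    rwa [norm_one] at this
  have hs : 0 < ‖1 - w‖ := h0.trans_le h2
  have h3 : ‖1 - w‖ ^ (-b) ≤ (1 - ‖w‖) ^ (-(b / 2)) * ‖1 - w‖ ^ (-(b / 2)) := by
    rw [show -b = -(b / 2) + -(b / 2) by ring, Real.rpow_add hs]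
    exact mul_le_mul_of_nonneg_right (Real.rpow_le_rpow_of_nonpos h0 h2 (by linarith))
      (Real.rpow_nonneg hs.le _)
  calc (1 - ‖w‖) ^ (-a) * ‖1 - w‖ ^ (-b)
      ≤ (1 - ‖w‖) ^ (-a) * ((1 - ‖w‖) ^ (-(b / 2)) * ‖1 - w‖ ^ (-(b / 2))) :=
        mul_le_mul_of_nonneg_left h3 (Real.rpow_nonneg h0.le _)
    _ = c⁻¹ * ((‖1 - w‖ ^ (-(b / 2)) * c) * (1 - ‖w‖) ^ (-(a + b / 2))) := by
        rw [neg_add, Real.rpow_add h0]
        field_simp
    _ ≤ c⁻¹ * ((W w).re * (1 - ‖w‖) ^ (-(a + b / 2))) :=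
        mul_le_mul_of_nonneg_left (mul_le_mul_of_nonneg_right (hWre w hw)
          (Real.rpow_nonneg h0.le _)) (inv_nonneg.2 hc0.le)

/-- Closed balls of one radius carry little mass if the atoms are small. -/
theorem exists_radius [IsFiniteMeasure ν] {B M : ℝ} (hB : ∀ p, ν.real {p} ≤ B) (hBM : B < M) :
    ∃ ρ : ℝ, 0 < ρ ∧ ∀ p, ν.real (closedBall p ρ) ≤ M := by
  have key : ∀ p, ∃ k : ℕ, ν.real (closedBall p (1 / ((k : ℝ) + 1))) ≤ M := by
    intro p
    have hanti : Antitone fun k : ℕ => closedBall p (1 / ((k : ℝ) + 1)) := fun i j hij =>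
      closedBall_subset_closedBall (by gcongr)
    have hlim := tendsto_measure_iInter_atTop (μ := ν)
      (fun k => measurableSet_closedBall.nullMeasurableSet) hanti ⟨0, measure_ne_top _ _⟩
    have hI : (⋂ k : ℕ, closedBall p (1 / ((k : ℝ) + 1))) = {p} := by
      ext q
      simp only [mem_iInter, mem_closedBall, mem_singleton_iff]
      refine ⟨fun h => dist_le_zero.1 ?_, fun h k => by subst h; rw [dist_self]; positivity⟩
      exact ge_of_tendsto' tendsto_one_div_add_atTop_nhds_zero_nat h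
    rw [hI] at hlim
    have hr := (ENNReal.tendsto_toReal (measure_ne_top ν {p})).comp hlim
    exact (hr.eventually_le_const ((hB p).trans_lt hBM)).exists
  choose k hk using key
  obtain ⟨δ, hδ, hsub⟩ := lebesgue_number_lemma_of_metric
    (c := fun p => ball p (1 / ((k p : ℝ) + 1))) isCompact_univ (fun _ => isOpen_ball)
    fun p _ => mem_iUnion.2 ⟨p, mem_ball_self (by positivity)⟩
  refine ⟨δ / 2, half_pos hδ, fun p => ?_⟩
  obtain ⟨q, hq⟩ := hsub p (mem_univ p)
  exact le_trans (measureReal_mono (((closedBall_subset_ball (half_lt_self hδ)).trans hq).trans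
    ball_subset_closedBall)) (hk q)

/-- Jensen's inequality for the exponential. -/
theorem exp_setIntegral_le [IsFiniteMeasure ν] {S : Set ↥(sphere (0 : ℂ) 1)}
    {X : ↥(sphere (0 : ℂ) 1) → ℝ} (hX : Continuous X) (hm : 0 < ν.real S) :
    Real.exp ((∫ ξ in S, X ξ ∂ν) / ν.real S) ≤ (∫ ξ in S, Real.exp (X ξ) ∂ν) / ν.real S := by
  have hi : Integrable X (ν.restrict S) :=
    hX.integrable_of_hasCompactSupport (HasCompactSupport.of_compactSpace _)
  have he : Integrable (fun ξ => Real.exp (X ξ)) (ν.restrict S) :=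
    (Real.continuous_exp.comp hX).integrable_of_hasCompactSupport
      (HasCompactSupport.of_compactSpace _)
  set A : ℝ := (∫ ξ in S, X ξ ∂ν) / ν.real S with hA
  rw [le_div_iff₀ hm]
  have h := integral_mono ((((hi.sub (integrable_const A)).add (integrable_const 1))).const_mul
    (Real.exp A)) he fun ξ => show Real.exp A * (X ξ - A + 1) ≤ Real.exp (X ξ) by
      calc Real.exp A * (X ξ - A + 1) ≤ Real.exp A * Real.exp (X ξ - A) :=
            mul_le_mul_of_nonneg_left (Real.add_one_le_exp _) (Real.exp_pos _).le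
        _ = _ := by rw [← Real.exp_add]; congr 1; ring
  refine le_of_eq_of_le ?_ h
  rw [integral_const_mul, integral_add' (hi.sub (integrable_const A)) (integrable_const 1),
    integral_sub' hi (integrable_const A), integral_const, integral_const,
    measureReal_restrict_apply_univ, smul_eq_mul, smul_eq_mul, mul_one, hA,
    mul_div_cancel₀ _ hm.ne']
  ring

/-- Exponentials of potentials with small atoms are area integrable against a small weight. -/
theorem lintegral_exp_pot_ne_top [IsFiniteMeasure ν] {B M u a : ℝ} (hu : 0 ≤ u) (hB0 : 0 ≤ B)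
    (hB : ∀ p, ν.real {p} ≤ B) (hBM : B < M) (hb : u * M < 2) (hab : a + u * M / 2 < 1) :
    ∫⁻ z in ball (0 : ℂ) 1, ENNReal.ofReal ((1 - ‖z‖) ^ (-a) * Real.exp (u * pot ν z)) ≠ ⊤ := by
  classical
  obtain ⟨ρ, hρ, hball⟩ := exists_radius hB hBM
  obtain ⟨N, -, hN, hcov⟩ := finite_cover_balls_of_compact
    (isCompact_univ (X := ↥(sphere (0 : ℂ) 1))) (half_pos hρ)
  set d : ℝ := min (ρ / 4) 1 with hd
  have hd0 : 0 < d := lt_min (by positivity) one_pos
  set E : ℝ := Real.exp (u * (ν.real univ * (Real.log 2 - Real.log d))) with hE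
  set S : ↥(sphere (0 : ℂ) 1) → Set ↥(sphere (0 : ℂ) 1) := fun p => closedBall p ρ with hS
  set T : ↥(sphere (0 : ℂ) 1) → ℂ → ℝ≥0∞ := fun ξ z =>
    ENNReal.ofReal (2 ^ (u * M) * ((1 - ‖z‖) ^ (-a) * ‖(ξ : ℂ) - z‖ ^ (-(u * M)))) with hT
  have hTm : Measurable (Function.uncurry fun z ξ => T ξ z) := by
    simp only [hT, Function.uncurry_def]
    fun_prop
  have huM : 0 ≤ u * M := mul_nonneg hu (by linarith)
  obtain ⟨K, hK, hKb⟩ := weight_bound (a := a) huM hb hab
  obtain ⟨K0, hK0, hK0b⟩ := weight_bound (a := a) (b := 0) le_rfl two_pos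
    (by linarith)
  have hpt : ∀ z ∈ ball (0 : ℂ) 1,
      ENNReal.ofReal ((1 - ‖z‖) ^ (-a) * Real.exp (u * pot ν z)) ≤
        ENNReal.ofReal (E * (1 - ‖z‖) ^ (-a)) + ∑ p ∈ hN.toFinset,
          ENNReal.ofReal (E / ν.real (S p)) * ∫⁻ ξ in S p, T ξ z ∂ν := by
    intro z hz
    have hz1 : ‖z‖ < 1 := mem_ball_zero_iff.1 hz
    have h0 : 0 < 1 - ‖z‖ := by linarith
    have hw : 0 ≤ (1 - ‖z‖) ^ (-a) := Real.rpow_nonneg h0.le _
    set L : ↥(sphere (0 : ℂ) 1) → ℝ := fun ξ => Real.log 2 - Real.log ‖(ξ : ℂ) - z‖ with hL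
    have hLi : Integrable L ν := integrable_pot_term hz1
    have hfar : ∀ U : Set ↥(sphere (0 : ℂ) 1), MeasurableSet U → (∀ ξ ∉ U, d ≤ ‖(ξ : ℂ) - z‖) →
        pot ν z ≤ (∫ ξ in U, L ξ ∂ν) + ν.real univ * (Real.log 2 - Real.log d) := by
      intro U hU hUd
      rw [pot, ← integral_add_compl hU hLi]
      refine add_le_add le_rfl ((setIntegral_mono_on hLi.integrableOn
        (integrable_const (Real.log 2 - Real.log d)).integrableOn hU.compl fun ξ hξ =>
          sub_le_sub_left (Real.log_le_log hd0 (hUd ξ hξ)) _).trans ?_)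
      rw [setIntegral_const, smul_eq_mul]
      refine mul_le_mul_of_nonneg_right (measureReal_mono (subset_univ _)) ?_
      linarith [Real.log_nonpos hd0.le (min_le_right _ _), Real.log_nonneg (one_le_two : (1 : ℝ) ≤ 2)]
    -- no point of the circle is close, or the close ones lie in one small ball
    by_cases hclose : ∀ ξ : ↥(sphere (0 : ℂ) 1), d ≤ ‖(ξ : ℂ) - z‖
    · refine le_trans (ENNReal.ofReal_le_ofReal ?_) le_self_add
      have h1 := hfar ∅ MeasurableSet.empty fun ξ _ => hclose ξ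
      rw [setIntegral_empty, zero_add] at h1
      rw [mul_comm E]
      exact mul_le_mul_of_nonneg_left (Real.exp_le_exp.2 (mul_le_mul_of_nonneg_left h1 hu)) hw
    push Not at hclose
    obtain ⟨ξ0, hξ0⟩ := hclose
    obtain ⟨p, hp, hξp⟩ := mem_iUnion₂.1 (hcov (mem_univ ξ0))
    have hSm : MeasurableSet (S p) := measurableSet_closedBall
    have h1 := hfar (S p) hSm fun ξ hξ => by
      simp only [hS, mem_closedBall, not_le] at hξ
      rw [mem_ball] at hξp
      have h2 := dist_triangle4 (ξ : ℂ) z (ξ0 : ℂ) (p : ℂ)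
      rw [Subtype.dist_eq] at hξ hξp
      simp only [dist_eq_norm] at h2
      rw [dist_eq_norm] at hξ hξp
      have := min_le_left (ρ / 4) (1 : ℝ)
      linarith [norm_sub_rev z (ξ0 : ℂ)]
    rcases (measureReal_nonneg : 0 ≤ ν.real (S p)).eq_or_lt' with hm | hm
    · refine le_trans (ENNReal.ofReal_le_ofReal ?_) le_self_add
      have hnull : ν (S p) = 0 := by
        rwa [measureReal_def, ENNReal.toReal_eq_zero_iff, or_iff_left (measure_ne_top _ _)] at hm
      rw [setIntegral_measure_zero _ hnull, zero_add] at h1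
      rw [mul_comm E]
      exact mul_le_mul_of_nonneg_left (Real.exp_le_exp.2 (mul_le_mul_of_nonneg_left h1 hu)) hw
    refine le_trans ?_ (le_trans (Finset.single_le_sum (fun q _ => bot_le)
      (hN.mem_toFinset.2 hp)) le_add_self)
    have hLc : Continuous L := continuous_pot_term hz1
    have hIi : IntegrableOn (fun ξ => Real.exp (u * M * L ξ)) (S p) ν :=
      ((Real.continuous_exp.comp (continuous_const.mul hLc)).integrable_of_hasCompactSupport
        (HasCompactSupport.of_compactSpace _)).integrableOn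
    have hJ : Real.exp (u * ∫ ξ in S p, L ξ ∂ν) ≤
        (∫ ξ in S p, Real.exp (u * M * L ξ) ∂ν) / ν.real (S p) := by
      refine le_trans (Real.exp_le_exp.2 ?_)
        (exp_setIntegral_le (continuous_const.mul hLc) hm)
      rw [integral_const_mul, le_div_iff₀ hm]
      calc (u * ∫ ξ in S p, L ξ ∂ν) * ν.real (S p) ≤ (u * ∫ ξ in S p, L ξ ∂ν) * M :=
            mul_le_mul_of_nonneg_left (hball p)
              (mul_nonneg hu (setIntegral_nonneg hSm fun ξ _ => pot_term_nonneg ξ hz1))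
        _ = _ := by ring
    have hTeq : ∀ ξ, T ξ z = ENNReal.ofReal ((1 - ‖z‖) ^ (-a) * Real.exp (u * M * L ξ)) := by
      intro ξ
      have hpos : 0 < ‖(ξ : ℂ) - z‖ := h0.trans_le (dist_pt_ge ξ z)
      simp only [hT, hL]
      congr 1
      rw [Real.rpow_def_of_pos two_pos, Real.rpow_def_of_pos hpos, mul_left_comm, ← Real.exp_add]
      ring_nf
    simp only [hTeq]
    rw [← ofReal_integral_eq_lintegral_ofReal (hIi.const_mul _)
      (Eventually.of_forall fun ξ => mul_nonneg hw (Real.exp_pos _).le),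
      ← ENNReal.ofReal_mul (by positivity), integral_const_mul]
    refine ENNReal.ofReal_le_ofReal ?_
    calc (1 - ‖z‖) ^ (-a) * Real.exp (u * pot ν z)
        ≤ (1 - ‖z‖) ^ (-a) * (Real.exp (u * ∫ ξ in S p, L ξ ∂ν) * E) := by
          rw [hE, ← Real.exp_add, ← mul_add]
          exact mul_le_mul_of_nonneg_left
            (Real.exp_le_exp.2 (mul_le_mul_of_nonneg_left h1 hu)) hw
      _ ≤ (1 - ‖z‖) ^ (-a) * ((∫ ξ in S p, Real.exp (u * M * L ξ) ∂ν) / ν.real (S p) * E) :=
          mul_le_mul_of_nonneg_left (mul_le_mul_of_nonneg_right hJ (Real.exp_pos _).le) hw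
      _ = _ := by ring
  refine ne_top_of_le_ne_top ?_ (setLIntegral_mono' measurableSet_ball hpt)
  have hmeas : ∀ p, Measurable fun z => ∫⁻ ξ in S p, T ξ z ∂ν := fun p =>
    hTm.lintegral_prod_right'
  rw [lintegral_add_left (by fun_prop), lintegral_finsetSum _ fun p _ => (hmeas p).const_mul _]
  refine ENNReal.add_ne_top.2 ⟨?_, ?_⟩
  · have h := hK0b ⟨1, by simp⟩
    simp only [neg_zero, Real.rpow_zero, mul_one] at h
    simp only [ENNReal.ofReal_mul (Real.exp_pos _).le, hE]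
    rw [lintegral_const_mul _ (by fun_prop)]
    exact ENNReal.mul_ne_top ENNReal.ofReal_ne_top (ne_top_of_le_ne_top hK0 h)
  · refine ENNReal.sum_ne_top.2 fun p _ => ?_
    rw [lintegral_const_mul _ (hmeas p)]
    refine ENNReal.mul_ne_top ENNReal.ofReal_ne_top ?_
    rw [lintegral_lintegral_swap hTm.aemeasurable]
    refine ne_top_of_le_ne_top ?_ (lintegral_mono (g := fun _ => ENNReal.ofReal (2 ^ (u * M)) * K)
      fun ξ => ?_)
    · rw [lintegral_const]
      exact ENNReal.mul_ne_top (ENNReal.mul_ne_top ENNReal.ofReal_ne_top hK) (measure_ne_top _ _)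
    · simp only [hT, ENNReal.ofReal_mul (Real.rpow_nonneg two_pos.le _)]
      rw [lintegral_const_mul _ (by fun_prop)]
      exact mul_le_mul' le_rfl (hKb ξ)

/-- For the maps in the class all powers in `(-2, 0]` of the derivative are area integrable. -/
theorem brennan_corner (hf : IsCornerMap f) {t : ℝ} (ht : -2 < t) (ht0 : t ≤ 0) :
    IntegrableOn (fun z => ‖deriv f z‖ ^ t) (ball (0 : ℂ) 1) := by
  obtain ⟨hd, -, hne, -⟩ := id hf
  obtain ⟨u, hu⟩ : ∃ u : ℝ, u = -t := ⟨_, rfl⟩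
  have hu0 : 0 ≤ u := by linarith
  have hu2 : u < 2 := by linarith
  set ε : ℝ := (2 - u) / 20 with hε
  have hε0 : 0 < ε := by linarith [show 0 < (2 - u) / 20 by linarith]
  obtain ⟨ν, hν, hat, C, hC⟩ := deriv_lower hf hε0
  have hue : u * ε ≤ 2 * ε := mul_le_mul_of_nonneg_right hu2.le hε0.le
  have hfin := lintegral_exp_pot_ne_top (ν := ν) (B := 1 + 2 * ε) (M := 1 + 3 * ε) (u := u)
    (a := ε * u) hu0 (by linarith) hat (by linarith)
    (by linarith [mul_add u 1 (3 * ε)]) (by linarith [mul_add u 1 (3 * ε)])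
  have hcont : ContinuousOn (fun z => ‖deriv f z‖ ^ t) (ball (0 : ℂ) 1) :=
    (hd.deriv isOpen_ball).continuousOn.norm.rpow_const fun z hz =>
      Or.inl (norm_ne_zero_iff.2 (hne z hz))
  refine ⟨hcont.aestronglyMeasurable measurableSet_ball, ?_⟩
  rw [hasFiniteIntegral_iff_ofReal
    (Eventually.of_forall fun z => Real.rpow_nonneg (norm_nonneg _) _)]
  refine lt_of_le_of_lt (setLIntegral_mono' measurableSet_ball
    (g := fun z => ENNReal.ofReal (Real.exp (u * C)) *
      ENNReal.ofReal ((1 - ‖z‖) ^ (-(ε * u)) * Real.exp (u * pot ν z))) fun z hz => ?_) ?_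
  · have hz1 : ‖z‖ < 1 := mem_ball_zero_iff.1 hz
    have h0 : 0 < 1 - ‖z‖ := by linarith
    rw [← ENNReal.ofReal_mul (Real.exp_pos _).le]
    refine ENNReal.ofReal_le_ofReal ?_
    rw [Real.rpow_def_of_pos (norm_pos_iff.2 (hne z hz)), Real.rpow_def_of_pos h0, ← Real.exp_add,
      ← Real.exp_add, show t = -u by linarith]
    exact Real.exp_le_exp.2 (by nlinarith [mul_le_mul_of_nonneg_left (hC z hz1) hu0])
  · rw [lintegral_const_mul' _ _ ENNReal.ofReal_ne_top]
    exact (ENNReal.mul_ne_top ENNReal.ofReal_ne_top hfin).lt_top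

end Vale.Agent.P142
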