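import Vale.Agent.P142.Corner.Defs

/-!
# P142: the Cauchy transform near one point of the circle
-/

noncomputable section

open Metric MeasureTheory Set Filter Topology

namespace Vale.Agent.P142

variable {μ π ν : Measure ↥(sphere (0 : ℂ) 1)}

theorem norm_coe_pt (ξ : ↥(sphere (0 : ℂ) 1)) : ‖(ξ : ℂ)‖ = 1 :=
  mem_sphere_zero_iff_norm.1 ξ.2

theorem dist_pt_ge (ξ : ↥(sphere (0 : ℂ) 1)) (z : ℂ) : 1 - ‖z‖ ≤ ‖(ξ : ℂ) - z‖ := by
  have := norm_sub_norm_le (ξ : ℂ) z
  rwa [norm_coe_pt] at this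

theorem integrable_kern [IsFiniteMeasure μ] {z : ℂ} (hz : ‖z‖ < 1) :
    Integrable (fun ξ : ↥(sphere (0 : ℂ) 1) => ((ξ : ℂ) - z)⁻¹) μ := by
  refine (Continuous.inv₀ (by fun_prop) fun ξ h => ?_).integrable_of_hasCompactSupport
    (HasCompactSupport.of_compactSpace _)
  have := dist_pt_ge ξ z
  rw [h, norm_zero] at this
  linarith

theorem kern_add [IsFiniteMeasure π] [IsFiniteMeasure ν] {z : ℂ} (hz : ‖z‖ < 1) :
    kern (π + ν) z = kern π z + kern ν z :=
  integral_add_measure (integrable_kern hz) (integrable_kern hz)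

/-- Near the point `p`, at scale `s`, only the atom at `p` is felt. -/
theorem kern_blowup [IsFiniteMeasure μ] (p : ↥(sphere (0 : ℂ) 1)) {a : ℝ} (ha : 0 < a) {δ : ℝ}
    (hδ : 0 < δ) :
    ∀ᶠ s : ℝ in 𝓝[>] 0, ∀ w : ℂ, a ≤ w.re → ‖w‖ ≤ 2 →
      ‖(s : ℂ) * p * kern μ ((p : ℂ) * (1 - s * w)) - ((μ.real {p} : ℝ) : ℂ) / w‖ ≤ δ := by
  classical
  set F : ℝ → ↥(sphere (0 : ℂ) 1) → ℝ := fun s ξ =>
    if ξ = p then 0 else s / max (s * a / 2) (‖(ξ : ℂ) - p‖ - 2 * s) with hF
  have hFb : ∀ s : ℝ, 0 < s → ∀ ξ, 0 ≤ F s ξ ∧ F s ξ ≤ 2 / a := by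
    intro s hs ξ
    simp only [hF]
    split_ifs
    · exact ⟨le_rfl, by positivity⟩
    · have h1 : 0 < s * a / 2 := by positivity
      refine ⟨div_nonneg hs.le (h1.le.trans (le_max_left _ _)), ?_⟩
      refine (div_le_div_of_nonneg_left hs.le h1 (le_max_left _ _)).trans (le_of_eq ?_)
      field_simp
  have hFm : ∀ s : ℝ, Measurable (F s) := fun s =>
    Measurable.ite (measurableSet_singleton p) measurable_const
      (by fun_prop)
  have hlim : Tendsto (fun s => ∫ ξ, F s ξ ∂μ) (𝓝[>] 0) (𝓝 0) := by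
    have h := tendsto_integral_filter_of_dominated_convergence (μ := μ) (l := 𝓝[>] (0 : ℝ))
      (F := F) (f := fun _ => (0 : ℝ)) (fun _ => 2 / a)
      (Eventually.of_forall fun s => (hFm s).aestronglyMeasurable) ?_ (integrable_const _) ?_
    · simpa using h
    · filter_upwards [self_mem_nhdsWithin] with s hs
      refine Eventually.of_forall fun ξ => ?_
      rw [Real.norm_eq_abs, abs_of_nonneg (hFb s hs ξ).1]
      exact (hFb s hs ξ).2
    · refine Eventually.of_forall fun ξ => ?_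
      simp only [hF]
      by_cases hξ : ξ = p
      · simp only [hξ, if_true]; exact tendsto_const_nhds
      simp only [if_neg hξ]
      have hd : 0 < ‖(ξ : ℂ) - p‖ :=
        norm_pos_iff.2 (sub_ne_zero.2 fun h => hξ (Subtype.ext h))
      have hc : ContinuousAt (fun s : ℝ => s / max (s * a / 2) (‖(ξ : ℂ) - p‖ - 2 * s)) 0 := by
        refine ContinuousAt.div continuousAt_id (by fun_prop) ?_
        simp [hd.ne']
      have := hc.tendsto.mono_left (nhdsWithin_le_nhds (s := Ioi (0 : ℝ)))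
      simpa using this
  have hsmall : ∀ᶠ s : ℝ in 𝓝[>] 0, ∫ ξ, F s ξ ∂μ ≤ δ :=
    (hlim.eventually_lt_const hδ).mono fun s h => h.le
  have hs1 : ∀ᶠ s : ℝ in 𝓝[>] 0, s < a / 4 :=
    nhdsWithin_le_nhds (eventually_lt_nhds (by positivity))
  filter_upwards [hsmall, hs1, self_mem_nhdsWithin] with s hs hsa hs0 w hw hw2
  have hw0 : w ≠ 0 := fun h => by rw [h, Complex.zero_re] at hw; linarith
  set z := (p : ℂ) * (1 - s * w) with hz
  have hs0' : (0 : ℝ) < s := hs0
  have hwre : w.re ≤ 2 := (Complex.re_le_norm w).trans hw2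
  have hsq : ‖z‖ ^ 2 ≤ (1 - s * a / 2) ^ 2 := by
    rw [hz, norm_mul, norm_coe_pt, one_mul, Complex.sq_norm]
    have : w.re ^ 2 + w.im ^ 2 ≤ 4 := by
      have h2 := pow_le_pow_left₀ (norm_nonneg w) hw2 2
      rw [Complex.sq_norm, Complex.normSq_apply] at h2
      linarith
    simp [Complex.normSq_apply]
    nlinarith [mul_le_mul_of_nonneg_left hw hs0'.le, mul_le_mul_of_nonneg_left this (sq_nonneg s),
      mul_le_mul_of_nonneg_left hsa.le hs0'.le]
  have hz1 : ‖z‖ ≤ 1 - s * a / 2 :=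
    le_of_pow_le_pow_left₀ two_ne_zero (by nlinarith) hsq
  have hzlt : ‖z‖ < 1 := by nlinarith [mul_pos hs0' ha]
  have hint := integrable_kern (μ := μ) hzlt
  have e1 : (s : ℂ) * p * kern μ z = ∫ ξ : ↥(sphere (0 : ℂ) 1), (s : ℂ) * p * ((ξ : ℂ) - z)⁻¹ ∂μ :=
    (integral_const_mul _ _).symm
  have e2 : ((μ.real {p} : ℝ) : ℂ) / w = ∫ ξ, ({p} : Set _).indicator (fun _ => w⁻¹) ξ ∂μ := by
    rw [integral_indicator (measurableSet_singleton p), setIntegral_const, Complex.real_smul,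
      div_eq_mul_inv]
  rw [e1, e2, ← integral_sub (hint.const_mul _)
    ((integrable_const _).indicator (measurableSet_singleton p))]
  refine (norm_integral_le_integral_norm _).trans (le_trans ?_ hs)
  refine integral_mono ((hint.const_mul _).sub
    ((integrable_const _).indicator (measurableSet_singleton p))).norm
    (Integrable.of_bound (hFm s).aestronglyMeasurable (2 / a)
      (Eventually.of_forall fun ξ => by
        rw [Real.norm_eq_abs, abs_of_nonneg (hFb s hs0 ξ).1]; exact (hFb s hs0 ξ).2)) fun ξ => ?_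
  simp only [Set.indicator_apply, Set.mem_singleton_iff, hF]
  by_cases hξ : ξ = p
  · subst hξ
    simp only [if_true]
    refine le_of_eq (norm_eq_zero.2 ?_)
    have hp : (ξ : ℂ) ≠ 0 := ne_zero_of_mem_unit_sphere ξ
    have hsc : (s : ℂ) ≠ 0 := Complex.ofReal_ne_zero.2 hs0'.ne'
    rw [show (ξ : ℂ) - z = (s : ℂ) * ξ * w by rw [hz]; ring]
    field_simp
    ring
  · simp only [if_neg hξ, sub_zero, norm_mul, norm_inv, Complex.norm_real, Real.norm_eq_abs,
      abs_of_pos hs0', norm_coe_pt, mul_one]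
    rw [← div_eq_mul_inv]
    refine div_le_div_of_nonneg_left hs0'.le (lt_max_of_lt_left (by positivity)) (max_le ?_ ?_)
    · linarith [dist_pt_ge ξ z]
    · have h1 : ‖(p : ℂ) - z‖ ≤ 2 * s := by
        rw [show (p : ℂ) - z = (p : ℂ) * (s * w) by rw [hz]; ring, norm_mul, norm_coe_pt, one_mul,
          norm_mul, Complex.norm_real, Real.norm_eq_abs, abs_of_pos hs0', mul_comm 2]
        exact mul_le_mul_of_nonneg_left hw2 hs0'.le
      linarith [norm_sub_le_norm_sub_add_norm_sub (ξ : ℂ) z p, norm_sub_rev z (p : ℂ)]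

end Vale.Agent.P142
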