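import Vale.Agent.P142.Koebe
import Vale.Agent.P142.Corner.Defs

/-!
# P142: the Koebe function is in the class
-/

noncomputable section

open Metric MeasureTheory Set Filter Topology

namespace Vale.Agent.P142

theorem isCornerMap_koebe : IsCornerMap fun z : ℂ => z / (1 - z) ^ 2 := by
  obtain ⟨-, hd, hinj, -⟩ := isBazilevic_koebe one_pos
  have hm : ∀ z ∈ ball (0 : ℂ) 1, (1 : ℂ) - z ≠ 0 ∧ (1 : ℂ) + z ≠ 0 := fun z hz => by
    refine ⟨fun h => ?_, fun h => ?_⟩
    · simp [← sub_eq_zero.1 h] at hz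
    · rw [show z = -1 by linear_combination h] at hz
      simp at hz
  have hder : ∀ z ∈ ball (0 : ℂ) 1,
      deriv (fun z : ℂ => z / (1 - z) ^ 2) z = (1 + z) / (1 - z) ^ 3 := fun z hz => by
    have := (hm z hz).1
    have h := (hasDerivAt_id z).div (((hasDerivAt_id z).const_sub 1).pow 2) (pow_ne_zero 2 this)
    refine h.deriv.trans ?_
    simp only [id_eq, Pi.pow_apply]
    field_simp
    push_cast
    ring
  refine ⟨hd, hinj, fun z hz => ?_, fun ε hε => ⟨(3 : ENNReal) • Measure.dirac ⟨1, by simp⟩,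
    Measure.dirac ⟨-1, by simp⟩, Measure.smul_finite _ (by norm_num), inferInstance, 0, one_pos,
    fun z _ hz1 => ?_⟩⟩
  · rw [hder z hz]
    exact div_ne_zero (hm z hz).2 (pow_ne_zero 3 (hm z hz).1)
  have hz : z ∈ ball (0 : ℂ) 1 := mem_ball_zero_iff.2 hz1
  obtain ⟨h1, h2⟩ := hm z hz
  have hdd : deriv (deriv fun z : ℂ => z / (1 - z) ^ 2) z =
      deriv (fun z : ℂ => (1 + z) / (1 - z) ^ 3) z :=
    (eventuallyEq_of_mem (isOpen_ball.mem_nhds hz) hder).deriv_eq
  have h := ((hasDerivAt_id z).const_add 1).div (((hasDerivAt_id z).const_sub 1).pow 3)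
    (pow_ne_zero 3 h1)
  have h' : deriv (fun z : ℂ => (1 + z) / (1 - z) ^ 3) z = _ := h.deriv
  rw [hdd, h', hder z hz]
  simp only [kern, integral_smul_measure, integral_dirac, id_eq, Pi.pow_apply]
  have h3 : (-1 : ℂ) - z ≠ 0 := fun h => h2 (by linear_combination -h)
  refine le_of_eq_of_le (norm_eq_zero.2 ?_) (div_nonneg hε.le (by linarith))
  simp only [Complex.real_smul]
  norm_num
  field_simp
  ring

end Vale.Agent.P142
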